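import Vale.Agent.Lib.RealArc.Mv
import Vale.Agent.P298.H744.CS
import Vale.Agent.Lib.Loja.Grad

/-! # No real formal arc implies a power inequality

`G j` are functions near `0` in `σ → ℝ` with asymptotic expansions `Ĝ j` which are approximated by
analytic functions up to any power of `q x = ∑ i ∈ s, x i ^ 2`. If every real formal arc in the zero
set of the `Ĝ j` lies in `{x i = 0, i ∈ s}`, then `q ^ N ≤ C ∑ G j ^ 2` near `0`. -/

open Filter Topology Asymptotics Set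
open scoped PowerSeries

namespace Vale.Agent.Lib.RealArc

/-- one-sided asymptotic expansion at `0` of a function of one variable -/
def Exp1 (u : ℝ → ℝ) (û : ℝ⟦X⟧) : Prop :=
  ∀ k : ℕ, ∃ q : Polynomial ℝ, PowerSeries.X ^ k ∣ û - (q : ℝ⟦X⟧) ∧
    (fun s => u s - q.eval s) =O[𝓝[>] 0] fun s => s ^ k

theorem poly_isBigO_one (q : Polynomial ℝ) :
    (fun s => q.eval s) =O[𝓝[>] 0] fun _ : ℝ => (1 : ℝ) :=
  ((q.continuous.tendsto 0).mono_left nhdsWithin_le_nhds).isBigO_one ℝ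

theorem poly_dvd_of_isBigO : ∀ (k : ℕ) (q : Polynomial ℝ),
    ((fun s => q.eval s) =O[𝓝[>] 0] fun s => s ^ k) → Polynomial.X ^ k ∣ q := by
  intro k
  induction k with
  | zero => simp
  | succ k ih =>
    intro q hq
    have h0 : q.eval 0 = 0 := by
      have h1 : Tendsto (fun s : ℝ => s ^ (k + 1)) (𝓝[>] 0) (𝓝 0) := by
        have : Tendsto (fun s : ℝ => s ^ (k + 1)) (𝓝 0) (𝓝 (0 ^ (k + 1))) :=
          (continuous_pow (k + 1)).tendsto 0
        simpa using this.mono_left nhdsWithin_le_nhds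
      exact tendsto_nhds_unique ((q.continuous.tendsto 0).mono_left nhdsWithin_le_nhds)
        (hq.trans_tendsto h1)
    obtain ⟨q', rfl⟩ : Polynomial.X ∣ q := by
      rw [Polynomial.X_dvd_iff, Polynomial.coeff_zero_eq_eval_zero, h0]
    rw [pow_succ']
    refine mul_dvd_mul_left _ (ih q' ?_)
    obtain ⟨c, hc⟩ := hq.bound
    refine IsBigO.of_bound c ?_
    filter_upwards [hc, self_mem_nhdsWithin] with s hs hs0
    have hs0' : (0 : ℝ) < s := hs0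
    simp only [Polynomial.eval_mul, Polynomial.eval_X, norm_mul, norm_pow, pow_succ',
      Real.norm_eq_abs, abs_of_pos hs0'] at hs ⊢
    have : s * |q'.eval s| ≤ s * (c * s ^ k) := by linarith
    exact le_of_mul_le_mul_left this hs0'

theorem poly_isBigO_of_dvd {k : ℕ} {q : Polynomial ℝ} (h : PowerSeries.X ^ k ∣ (q : ℝ⟦X⟧)) :
    (fun s => q.eval s) =O[𝓝[>] 0] fun s => s ^ k := by
  have h1 : Polynomial.X ^ k ∣ q := by
    rw [Polynomial.X_pow_dvd_iff]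
    intro d hd
    rw [← Polynomial.coeff_coe]
    exact PowerSeries.X_pow_dvd_iff.1 h d hd
  obtain ⟨q', rfl⟩ := h1
  have := (isBigO_refl (fun s : ℝ => s ^ k) (𝓝[>] 0)).mul (poly_isBigO_one q')
  simpa using this

theorem Exp1.dvd_of_isBigO {u : ℝ → ℝ} {û : ℝ⟦X⟧} (h : Exp1 u û) {k : ℕ}
    (hu : u =O[𝓝[>] 0] fun s => s ^ k) : PowerSeries.X ^ k ∣ û := by
  obtain ⟨q, h1, h2⟩ := h k
  have h3 : (fun s => q.eval s) =O[𝓝[>] 0] fun s => s ^ k := by
    simpa using hu.sub h2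
  obtain ⟨q', hq'⟩ := poly_dvd_of_isBigO k q h3
  have h4 : PowerSeries.X ^ k ∣ (q : ℝ⟦X⟧) := ⟨q', by rw [hq']; simp⟩
  simpa using dvd_add h1 h4

theorem Exp1.isBigO_of_dvd {u : ℝ → ℝ} {û : ℝ⟦X⟧} (h : Exp1 u û) {k : ℕ}
    (hu : PowerSeries.X ^ k ∣ û) : u =O[𝓝[>] 0] fun s => s ^ k := by
  obtain ⟨q, h1, h2⟩ := h k
  have h4 : PowerSeries.X ^ k ∣ (q : ℝ⟦X⟧) := by simpa using dvd_sub hu h1
  simpa using h2.add (poly_isBigO_of_dvd h4)

theorem Exp1.const (c : ℝ) : Exp1 (fun _ => c) (PowerSeries.C c) := fun k =>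
  ⟨Polynomial.C c, by simp, by simp [isBigO_zero]⟩

theorem Exp1.add {u v : ℝ → ℝ} {û v' : ℝ⟦X⟧} (hu : Exp1 u û) (hv : Exp1 v v') :
    Exp1 (fun s => u s + v s) (û + v') := by
  intro k
  obtain ⟨q, h1, h2⟩ := hu k
  obtain ⟨r, h3, h4⟩ := hv k
  refine ⟨q + r, ?_, ?_⟩
  · have := dvd_add h1 h3
    convert this using 1
    push_cast
    ring
  · refine (h2.add h4).congr_left fun s => ?_
    simp only [Polynomial.eval_add]
    ring

theorem Exp1.mul {u v : ℝ → ℝ} {û v' : ℝ⟦X⟧} (hu : Exp1 u û) (hv : Exp1 v v') :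
    Exp1 (fun s => u s * v s) (û * v') := by
  intro k
  obtain ⟨q, h1, h2⟩ := hu k
  obtain ⟨r, h3, h4⟩ := hv k
  have hv1 : v =O[𝓝[>] 0] fun _ : ℝ => (1 : ℝ) := by
    simpa using hv.isBigO_of_dvd (k := 0) (by simp)
  refine ⟨q * r, ?_, ?_⟩
  · have := dvd_add (h1.mul_right v') (h3.mul_left (q : ℝ⟦X⟧))
    convert this using 1
    push_cast
    ring
  · refine IsBigO.congr_left (f₁ := fun s => (u s - q.eval s) * v s + q.eval s * (v s - r.eval s))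
      ?_ fun s => ?_
    · refine IsBigO.add ?_ ?_
      · simpa using h2.mul hv1
      · simpa using (poly_isBigO_one q).mul h4
    · simp only [Polynomial.eval_mul]
      ring

theorem exists_exp1 {u : ℝ → ℝ} (hu : AnalyticAt ℝ u 0) :
    ∃ û : ℝ⟦X⟧, Exp1 u û ∧ PowerSeries.constantCoeff û = u 0 ∧ (û = 0 → ∀ᶠ s in 𝓝 0, u s = 0) := by
  obtain ⟨p, hp⟩ := hu
  refine ⟨PowerSeries.mk fun n => p.coeff n, fun k => ?_, ?_, fun h0 => ?_⟩
  · refine ⟨PowerSeries.trunc k (PowerSeries.mk fun n => p.coeff n), ?_, ?_⟩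
    · rw [PowerSeries.X_pow_dvd_iff]
      intro m hm
      simp [PowerSeries.coeff_trunc, hm]
    · have h1 := (hp.isBigO_sub_partialSum_pow k).mono (nhdsWithin_le_nhds (s := Ioi 0))
      refine IsBigO.of_norm_right ?_
      simp only [norm_pow]
      refine h1.congr_left fun s => ?_
      rw [zero_add, ← Polynomial.eval₂_id, PowerSeries.eval₂_trunc_eq_sum_range,
        FormalMultilinearSeries.partialSum]
      congr 1
      refine Finset.sum_congr rfl fun i _ => ?_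
      rw [FormalMultilinearSeries.apply_eq_pow_smul_coeff]
      simp [mul_comm]
  · rw [← PowerSeries.coeff_zero_eq_constantCoeff_apply, PowerSeries.coeff_mk]
    exact hp.coeff_zero 1
  · rw [hp.locally_zero_iff]
    ext1 n
    have := congrArg (PowerSeries.coeff n) h0
    rw [PowerSeries.coeff_mk, map_zero] at this
    exact FormalMultilinearSeries.coeff_eq_zero.1 this

theorem Exp1.mvPoly {σ : Type*} {γ : ℝ → σ → ℝ} {γ' : σ → ℝ⟦X⟧}
    (h : ∀ i, Exp1 (fun s => γ s i) (γ' i)) (p : MvPolynomial σ ℝ) :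
    Exp1 (fun s => MvPolynomial.eval (γ s) p) (MvPolynomial.aeval γ' p) := by
  induction p using MvPolynomial.induction_on with
  | C a => simpa [PowerSeries.algebraMap_apply] using Exp1.const a
  | add p q hp hq => simpa using hp.add hq
  | mul_X p i hp => simpa using hp.mul (h i)

variable {σ : Type} [Fintype σ]

/-- asymptotic expansion at `0` of a function of several variables -/
def HasExp (g : (σ → ℝ) → ℝ) (g' : MvPowerSeries σ ℝ) : Prop :=
  ∀ k : ℕ, (fun x => g x - MvPolynomial.eval x (MvPowerSeries.truncTotal k g')) =O[𝓝 0]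
    fun x => ‖x‖ ^ k

theorem X_pow_dvd_subst {γ' : σ → ℝ⟦X⟧} (h0 : ∀ i, PowerSeries.constantCoeff (γ' i) = 0)
    {g : MvPowerSeries σ ℝ} {k : ℕ} (hg : (k : ℕ∞) ≤ g.order) :
    (PowerSeries.X : ℝ⟦X⟧) ^ k ∣ arcHom h0 g := by
  have h1 := MvPowerSeries.le_order_subst (hasSubst_arc h0) g
  have h2 : ∀ i, 1 ≤ MvPowerSeries.order (σ := Unit) (γ' i) := fun i => by
    rw [MvPowerSeries.one_le_order_iff_constCoeff_eq_zero]
    exact h0 i
  have h3 : (k : ℕ∞) ≤ MvPowerSeries.order (σ := Unit) (arcHom h0 g) := by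
    rw [arcHom_apply]
    refine le_trans ?_ h1
    calc (k : ℕ∞) ≤ 1 * g.order := by rwa [one_mul]
      _ ≤ _ := mul_le_mul' (le_iInf h2) le_rfl
  rw [PowerSeries.X_pow_dvd_iff]
  intro m hm
  refine MvPowerSeries.coeff_of_lt_order (lt_of_lt_of_le ?_ h3)
  simpa using hm

theorem HasExp.comp {g : (σ → ℝ) → ℝ} {g' : MvPowerSeries σ ℝ} (hg : HasExp g g')
    {γ : ℝ → σ → ℝ} {γ' : σ → ℝ⟦X⟧} (h : ∀ i, Exp1 (fun s => γ s i) (γ' i))
    (h0 : ∀ i, PowerSeries.constantCoeff (γ' i) = 0) :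
    Exp1 (fun s => g (γ s)) (arcHom h0 g') := by
  intro k
  have hγ : γ =O[𝓝[>] 0] fun s : ℝ => s := by
    rw [isBigO_pi]
    intro i
    simpa using (h i).isBigO_of_dvd (k := 1) (by simpa using PowerSeries.X_dvd_iff.2 (h0 i))
  have hγ0 : Tendsto γ (𝓝[>] 0) (𝓝 0) :=
    hγ.trans_tendsto (tendsto_id.mono_left nhdsWithin_le_nhds)
  obtain ⟨q, h1, h2⟩ := Exp1.mvPoly h (MvPowerSeries.truncTotal k g') k
  refine ⟨q, ?_, ?_⟩
  · have h3 : (PowerSeries.X : ℝ⟦X⟧) ^ k ∣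
        arcHom h0 (g' - (MvPowerSeries.truncTotal k g' : MvPolynomial σ ℝ)) := by
      refine X_pow_dvd_subst h0 (MvPowerSeries.nat_le_order fun d hd => ?_)
      rw [map_sub, MvPolynomial.coeff_coe, MvPowerSeries.coeff_truncTotal _ hd, sub_self]
    have h4 : arcHom h0 ((MvPowerSeries.truncTotal k g' : MvPolynomial σ ℝ) : MvPowerSeries σ ℝ) =
        MvPolynomial.aeval γ' (MvPowerSeries.truncTotal k g') :=
      MvPowerSeries.substAlgHom_coe _ _
    rw [map_sub, h4] at h3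
    simpa using dvd_add h3 h1
  · have h3 := ((hg k).comp_tendsto hγ0).trans (hγ.norm_left.pow k)
    refine (h3.add h2).congr_left fun s => ?_
    simp

/-- an analytic arc in a set where the `G j` are small gives an approximate formal arc -/
theorem approx_arc {ι : Type*} (S : Finset σ) {G : ι → (σ → ℝ) → ℝ} {G' : ι → MvPowerSeries σ ℝ}
    (hexp : ∀ j, HasExp (G j) (G' j)) {γ : ℝ → σ → ℝ} (hγ : AnalyticAt ℝ γ 0) (hγ0 : γ 0 = 0)
    (hne : ∀ᶠ s in 𝓝[>] (0 : ℝ), ∑ i ∈ S, γ s i ^ 2 ≠ 0) (N : ℕ)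
    (hG : ∀ j, (fun s => G j (γ s)) =O[𝓝[>] 0] fun s => (∑ i ∈ S, γ s i ^ 2) ^ N) :
    ∃ i₀ ∈ S, ∃ φ : MvPowerSeries σ ℝ →ₐ[ℝ] ℝ⟦X⟧, φ (MvPowerSeries.X i₀) ≠ 0 ∧
      ∀ j, φ (MvPowerSeries.X i₀) ^ N ∣ φ (G' j) := by
  classical
  have hγi : ∀ i, AnalyticAt ℝ (fun s => γ s i) 0 := fun i => analyticAt_pi_iff.1 hγ i
  choose γ' h1 h2 h3 using fun i => exists_exp1 (hγi i)
  have h0 : ∀ i, PowerSeries.constantCoeff (γ' i) = 0 := fun i => by rw [h2, hγ0]; rfl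
  have hS : (S.filter fun i => γ' i ≠ 0).Nonempty := by
    by_contra hc
    rw [Finset.not_nonempty_iff_eq_empty, Finset.filter_eq_empty_iff] at hc
    have h4 : ∀ᶠ s in 𝓝[>] (0 : ℝ), ∀ i ∈ S, γ s i = 0 :=
      ((Finset.eventually_all S).2 fun i hi => h3 i (not_not.1 (hc hi))).filter_mono
        nhdsWithin_le_nhds
    obtain ⟨s, hs1, hs2⟩ := (hne.and h4).exists
    exact hs1 (Finset.sum_eq_zero fun i hi => by rw [hs2 i hi]; simp)
  obtain ⟨i₀, hi₀, hmin⟩ := Finset.exists_min_image _ (fun i => (γ' i).order.toNat) hS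
  rw [Finset.mem_filter] at hi₀
  set n := (γ' i₀).order.toNat with hn
  have hdvd : ∀ i ∈ S, (PowerSeries.X : ℝ⟦X⟧) ^ n ∣ γ' i := by
    intro i hi
    by_cases hz : γ' i = 0
    · rw [hz]
      exact dvd_zero _
    exact (pow_dvd_pow _ (hmin i (Finset.mem_filter.2 ⟨hi, hz⟩))).trans
      PowerSeries.X_pow_order_dvd
  have hq : (fun s => ∑ i ∈ S, γ s i ^ 2) =O[𝓝[>] 0] fun s => s ^ n := by
    refine IsBigO.fun_sum fun i hi => ?_
    have h4 := (h1 i).isBigO_of_dvd (hdvd i hi)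
    have h5 := (h1 i).isBigO_of_dvd (k := 0) (by simp)
    simpa [sq] using h4.mul h5
  refine ⟨i₀, hi₀.1, arcHom h0, by rw [arcHom_X]; exact hi₀.2, fun j => ?_⟩
  have h4 : (PowerSeries.X : ℝ⟦X⟧) ^ (n * N) ∣ arcHom h0 (G' j) := by
    refine ((hexp j).comp h1 h0).dvd_of_isBigO ((hG j).trans ?_)
    simpa [pow_mul] using hq.pow N
  refine dvd_trans ?_ h4
  rw [arcHom_X, pow_mul]
  refine pow_dvd_pow_of_dvd ?_ N
  obtain ⟨u, hu⟩ := PowerSeries.isUnit_divided_by_X_pow_order hi₀.2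
  refine ⟨↑u⁻¹, ?_⟩
  have := PowerSeries.X_pow_order_mul_divXPowOrder (f := γ' i₀)
  conv_rhs => rw [← this, ← hu]
  simp [mul_assoc, hn]

/-- **No real formal arc implies a power inequality.** -/
theorem pow_le_of_no_arc {ι : Type*} [Fintype ι] (S : Finset σ) {G : ι → (σ → ℝ) → ℝ}
    {G' : ι → MvPowerSeries σ ℝ} (hexp : ∀ j, HasExp (G j) (G' j))
    (htr : ∀ j (M : ℕ), ∃ T : (σ → ℝ) → ℝ, AnalyticAt ℝ T 0 ∧
      (fun x => G j x - T x) =O[𝓝 0] fun x => (∑ i ∈ S, x i ^ 2) ^ M)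
    (hno : ∀ γ : σ → ℝ⟦X⟧, (∀ i, PowerSeries.constantCoeff (γ i) = 0) →
      (∀ j, MvPowerSeries.subst (τ := Unit) (S := ℝ) γ (G' j) = 0) → ∀ i ∈ S, γ i = 0) :
    ∃ (N : ℕ) (C : ℝ), 0 < N ∧ 0 < C ∧
      ∀ᶠ x in 𝓝 (0 : σ → ℝ), (∑ i ∈ S, x i ^ 2) ^ N ≤ C * ∑ j, G j x ^ 2 := by
  classical
  by_contra hcon
  have key : ∀ N : ℕ, ∃ i₀ ∈ S, ∃ φ : MvPowerSeries σ ℝ →ₐ[ℝ] ℝ⟦X⟧,
      φ (MvPowerSeries.X i₀) ≠ 0 ∧ ∀ j, φ (MvPowerSeries.X i₀) ^ N ∣ φ (G' j) := by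
    intro N₀
    set N := N₀ + 1 with hN
    set q : (σ → ℝ) → ℝ := fun x => ∑ i ∈ S, x i ^ 2 with hq
    have hq0 : ∀ x, 0 ≤ q x := fun x => Finset.sum_nonneg fun i _ => sq_nonneg _
    have hqa : AnalyticAt ℝ q 0 :=
      Finset.analyticAt_fun_sum _ fun i _ =>
        ((ContinuousLinearMap.proj (R := ℝ) (φ := fun _ : σ => ℝ) i).analyticAt 0).pow 2
    choose T hTa hT using fun j => htr j N
    choose c hc using fun j => (hT j).bound
    have hfr : ∃ᶠ x in 𝓝 (0 : σ → ℝ), ∑ j, G j x ^ 2 < q x ^ (2 * N) := by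
      by_contra h
      rw [not_frequently] at h
      refine hcon ⟨2 * N, 1, by omega, one_pos, h.mono fun x hx => ?_⟩
      rw [one_mul]
      exact not_lt.1 hx
    set D : ℝ := 2 + 2 * ∑ j, c j ^ 2 with hD
    let Φ : (σ → ℝ) → ℝ := fun x => ∑ j, T j x ^ 2 - D * q x ^ (2 * N)
    have hΦ : AnalyticAt ℝ Φ 0 :=
      (Finset.analyticAt_fun_sum _ fun j _ => (hTa j).pow 2).sub
        (analyticAt_const.mul (hqa.pow _))
    have hΦf : ∃ᶠ x in 𝓝 (0 : σ → ℝ), Φ x < 0 := by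
      refine (hfr.and_eventually (eventually_all.2 hc)).mono fun x hx => ?_
      have h1 : ∀ j, T j x ^ 2 ≤ 2 * G j x ^ 2 + 2 * (c j ^ 2 * q x ^ (2 * N)) := by
        intro j
        have h2 := hx.2 j
        rw [Real.norm_eq_abs, Real.norm_eq_abs] at h2
        have h3 : (G j x - T j x) ^ 2 ≤ c j ^ 2 * q x ^ (2 * N) := by
          have := pow_le_pow_left₀ (abs_nonneg _) h2 2
          rw [sq_abs, mul_pow, sq_abs, ← pow_mul, mul_comm N 2] at this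
          exact this
        nlinarith [sq_nonneg (2 * G j x - T j x)]
      have h4 := Finset.sum_le_sum fun j (_ : j ∈ Finset.univ) => h1 j
      rw [Finset.sum_add_distrib, ← Finset.mul_sum, ← Finset.mul_sum, ← Finset.sum_mul] at h4
      have := hx.1
      simp only [Φ, hD]
      nlinarith
    obtain ⟨γ, hγa, hγ0, hγ⟩ := Vale.Agent.P298.H744.curve_selection hΦ hΦf
    have hγt : Tendsto γ (𝓝[>] 0) (𝓝 0) := by
      have := hγa.continuousAt.tendsto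
      rw [hγ0] at this
      exact this.mono_left nhdsWithin_le_nhds
    obtain ⟨i₀, hi₀, φ, h1, h2⟩ := approx_arc S hexp hγa hγ0 (hγ.mono fun s hs h0 => by
      have h3 : q (γ s) = 0 := h0
      have h4 : 0 ≤ ∑ j, T j (γ s) ^ 2 := Finset.sum_nonneg fun j _ => sq_nonneg _
      simp only [Φ, h3, zero_pow (show 2 * N ≠ 0 by omega), mul_zero, sub_zero] at hs
      linarith) N (fun j => by
      have h3 : (fun s => T j (γ s)) =O[𝓝[>] 0] fun s => q (γ s) ^ N := by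
        refine IsBigO.of_pow (n := 2) two_ne_zero (IsBigO.of_bound |D| ?_)
        filter_upwards [hγ] with s hs
        have h4 : T j (γ s) ^ 2 ≤ ∑ j, T j (γ s) ^ 2 :=
          Finset.single_le_sum (f := fun j => T j (γ s) ^ 2) (fun j _ => sq_nonneg _)
            (Finset.mem_univ j)
        have h5 : 0 ≤ q (γ s) ^ (2 * N) := pow_nonneg (hq0 _) _
        simp only [Φ] at hs
        simp only [Pi.pow_apply, Real.norm_eq_abs]
        rw [abs_of_nonneg (sq_nonneg _), ← pow_mul, mul_comm N 2, abs_of_nonneg h5]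
        nlinarith [le_abs_self D]
      have h6 : (fun s => G j (γ s) - T j (γ s)) =O[𝓝[>] 0] fun s => q (γ s) ^ N :=
        (hT j).comp_tendsto hγt
      refine (h6.add h3).congr_left fun s => ?_
      simp)
    exact ⟨i₀, hi₀, φ, h1, fun j => (pow_dvd_pow _ (by omega)).trans (h2 j)⟩
  obtain ⟨i₀, hi₀, hall⟩ : ∃ i₀ ∈ S, ∀ N : ℕ, ∃ φ : MvPowerSeries σ ℝ →ₐ[ℝ] ℝ⟦X⟧,
      φ (MvPowerSeries.X i₀) ≠ 0 ∧ ∀ j, φ (MvPowerSeries.X i₀) ^ N ∣ φ (G' j) := by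
    by_contra h
    push Not at h
    choose! Nf hNf using h
    obtain ⟨i₀, hi₀, φ, h1, h2⟩ := key (∑ i ∈ S, Nf i)
    obtain ⟨j, hj⟩ := hNf i₀ hi₀ φ h1
    exact hj ((pow_dvd_pow _ (Finset.single_le_sum (fun i _ => Nat.zero_le (Nf i)) hi₀)).trans
      (h2 j))
  obtain ⟨ψ, h1, h2⟩ := arc_lemma_hom i₀ (Set.range G') fun N => by
    obtain ⟨φ, h1, h2⟩ := hall N
    exact ⟨φ, h1, by rintro _ ⟨j, rfl⟩; exact h2 j⟩
  exact h1 (hno (fun i => ψ (MvPowerSeries.X i))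
    (fun i => const_hom ψ (MvPowerSeries.constantCoeff_X i))
    (fun j => (hom_eq_subst ψ _).symm.trans (h2 _ ⟨j, rfl⟩)) i₀ hi₀)

/-- The gradient inequality for a function which is approximated by an analytic one. -/
theorem loja_of_approx {E : Type*} [NormedAddCommGroup E] [NormedSpace ℝ E]
    [FiniteDimensional ℝ E] {f T p g : E → ℝ} {x₀ : E} (hT : AnalyticAt ℝ T x₀)
    (hT0 : T x₀ = f x₀) (hp : ∀ᶠ x in 𝓝 x₀, 0 ≤ p x ∧ p x ≤ 1) (hpg : p =O[𝓝 x₀] g)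
    (hf : (fun x => f x - T x) =O[𝓝 x₀] fun x => p x ^ 2)
    (hd : (fun x => fderiv ℝ T x) =O[𝓝 x₀] fun x => |g x| + p x) :
    ∃ θ : ℝ, 1 / 2 ≤ θ ∧ θ < 1 ∧ ∃ C : ℝ, 0 < C ∧
      ∀ᶠ x in 𝓝 x₀, |f x - f x₀| ^ θ ≤ C * |g x| := by
  obtain ⟨θ, h1, h2, C, hC, h⟩ := Vale.Agent.Lib.Loja.grad_real hT
  obtain ⟨c₁, hc₁, k₁⟩ := hpg.exists_pos
  obtain ⟨c₂, hc₂, k₂⟩ := hf.exists_pos
  obtain ⟨c₃, hc₃, k₃⟩ := hd.exists_pos
  refine ⟨θ, h1, h2, C * c₃ * (1 + c₁) + c₂ ^ θ * c₁, by positivity, ?_⟩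
  filter_upwards [h, hp, k₁.bound, k₂.bound, k₃.bound] with x e0 ep e1 e2 e3
  simp only [Real.norm_eq_abs] at e1 e2 e3
  rw [abs_of_nonneg ep.1] at e1
  rw [abs_of_nonneg (sq_nonneg (p x))] at e2
  rw [abs_of_nonneg (add_nonneg (abs_nonneg _) ep.1)] at e3
  have hθ : 0 ≤ θ := by linarith
  have a1 : |f x - f x₀| ≤ |T x - T x₀| + |f x - T x| := by
    rw [hT0]
    have := abs_add_le (T x - f x₀) (f x - T x)
    rwa [show T x - f x₀ + (f x - T x) = f x - f x₀ by ring] at this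
  have a2 : |f x - f x₀| ^ θ ≤ |T x - T x₀| ^ θ + |f x - T x| ^ θ :=
    (Real.rpow_le_rpow (abs_nonneg _) a1 hθ).trans
      (Real.rpow_add_le_add_rpow (abs_nonneg _) (abs_nonneg _) hθ h2.le)
  have a3 : |f x - T x| ^ θ ≤ c₂ ^ θ * p x := by
    refine (Real.rpow_le_rpow (abs_nonneg _) e2 hθ).trans ?_
    rw [Real.mul_rpow hc₂.le (sq_nonneg _)]
    refine mul_le_mul_of_nonneg_left ?_ (Real.rpow_nonneg hc₂.le _)
    rw [← Real.rpow_natCast, ← Real.rpow_mul ep.1]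
    rcases ep.1.eq_or_lt with h0 | h0
    · rw [← h0, Real.zero_rpow (by push_cast; linarith)]
    · conv_rhs => rw [← Real.rpow_one (p x)]
      exact Real.rpow_le_rpow_of_exponent_ge h0 ep.2 (by push_cast; linarith)
  have a4 : 0 ≤ c₂ ^ θ := Real.rpow_nonneg hc₂.le _
  have a5 : ‖fderiv ℝ T x‖ ≤ c₃ * ((1 + c₁) * |g x|) := by nlinarith
  have a6 : C * ‖fderiv ℝ T x‖ ≤ C * (c₃ * ((1 + c₁) * |g x|)) :=
    mul_le_mul_of_nonneg_left a5 hC.le
  have a7 : c₂ ^ θ * p x ≤ c₂ ^ θ * (c₁ * |g x|) := mul_le_mul_of_nonneg_left e1 a4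
  nlinarith

end Vale.Agent.Lib.RealArc
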