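import Vale.Agent.Lib.RealArc.One
import Mathlib.RingTheory.MvPowerSeries.Equiv
import Mathlib.RingTheory.MvPowerSeries.Inverse
import Mathlib.RingTheory.MvPowerSeries.NoZeroDivisors
import Mathlib.Algebra.MvPolynomial.Funext
import Mathlib.LinearAlgebra.Matrix.NonsingularInverse
import Mathlib.RingTheory.UniqueFactorizationDomain.Multiplicity
import Mathlib.RingTheory.Noetherian.UniqueFactorizationDomain
import Mathlib.Algebra.CharZero.Infinite

/-! # The arc lemma in power series rings over a field of characteristic zero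

`arc_lemma`: if a set `G` of power series vanishes along formal arcs `γ` to order `N` times the
order of the coordinate `γ i₀ ≠ 0`, for every `N`, then it vanishes identically along a formal arc
over the same field with `γ i₀ ≠ 0`. -/

open MvPowerSeries Finsupp
open scoped PowerSeries

namespace Vale.Agent.Lib.RealArc

section MaxIdeal

variable {κ : Type*} [Field κ] {σ : Type*} [Finite σ]

theorem mem_span_range_X {f : MvPowerSeries σ κ} (hf : constantCoeff f = 0) :
    f ∈ Ideal.span (Set.range (X : σ → MvPowerSeries σ κ)) := by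
  classical
  cases nonempty_fintype σ
  have hex : ∀ d : σ →₀ ℕ, d ≠ 0 → ∃ i, d i ≠ 0 := fun d hd => by
    by_contra! h
    exact hd (Finsupp.ext h)
  let idx : ∀ d : σ →₀ ℕ, d ≠ 0 → σ := fun d hd => (hex d hd).choose
  have hidx : ∀ (d : σ →₀ ℕ) (hd : d ≠ 0), d (idx d hd) ≠ 0 := fun d hd => (hex d hd).choose_spec
  let g : σ → MvPowerSeries σ κ := fun i d =>
    if h : d + single i 1 ≠ 0 then (if idx (d + single i 1) h = i then coeff (d + single i 1) f else 0)
    else 0
  have key : f = ∑ i, X i * g i := by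
    ext d
    rw [map_sum]
    have h1 : ∀ i, coeff d (X i * g i) =
        if h : d ≠ 0 then (if idx d h = i then coeff d f else 0) else 0 := by
      intro i
      rw [X, coeff_monomial_mul]
      by_cases hd : d = 0
      · subst hd
        simp
      · rw [dif_pos hd]
        by_cases hi : single i 1 ≤ d
        · rw [if_pos hi, one_mul]
          have h2 : d - single i 1 + single i 1 = d := tsub_add_cancel_of_le hi
          change (if h : (d - single i 1) + single i 1 ≠ 0 then _ else _) = _
          have h3 : ∀ e : σ →₀ ℕ, e = d →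
              (if h : e ≠ 0 then (if idx e h = i then coeff e f else 0) else 0) =
              (if idx d hd = i then coeff d f else 0) := by
            intro e he
            subst he
            rw [dif_pos hd]
          exact h3 _ h2
        · rw [if_neg hi]
          have : idx d hd ≠ i := by
            rintro rfl
            apply hi
            rw [Finsupp.single_le_iff]
            exact Nat.one_le_iff_ne_zero.mpr (hidx d hd)
          rw [if_neg this]
    simp_rw [h1]
    by_cases hd : d = 0
    · subst hd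
      simpa only [coeff_zero_eq_constantCoeff, ne_eq, not_true_eq_false, ↓reduceDIte,
        Finset.sum_const_zero] using hf
    · simp [hd]
  rw [key]
  exact Ideal.sum_mem _ fun i _ => Ideal.mul_mem_right _ _ (Ideal.subset_span ⟨i, rfl⟩)

omit [Finite σ] in
theorem mem_maximalIdeal_iff {f : MvPowerSeries σ κ} :
    f ∈ IsLocalRing.maximalIdeal (MvPowerSeries σ κ) ↔ constantCoeff f = 0 := by
  rw [IsLocalRing.mem_maximalIdeal, mem_nonunits_iff, MvPowerSeries.isUnit_iff_constantCoeff,
    isUnit_iff_ne_zero, not_not]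

theorem maximalIdeal_eq_span :
    IsLocalRing.maximalIdeal (MvPowerSeries σ κ) = Ideal.span (Set.range X) := by
  apply le_antisymm
  · intro f hf
    exact mem_span_range_X (mem_maximalIdeal_iff.mp hf)
  · rw [Ideal.span_le]
    rintro _ ⟨i, rfl⟩
    exact mem_maximalIdeal_iff.mpr (constantCoeff_X i)

instance isAdicComplete_maximalIdeal :
    IsAdicComplete (IsLocalRing.maximalIdeal (MvPowerSeries σ κ)) (MvPowerSeries σ κ) := by
  rw [maximalIdeal_eq_span]
  infer_instance

omit [Finite σ] in
/-- algebra maps to `κ⟦X⟧` are local -/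
theorem const_hom (φ : MvPowerSeries σ κ →ₐ[κ] κ⟦X⟧) {g : MvPowerSeries σ κ}
    (hg : constantCoeff g = 0) : PowerSeries.constantCoeff (φ g) = 0 := by
  by_contra hc
  set c := PowerSeries.constantCoeff (φ g) with hcd
  have h1 : IsUnit (g - algebraMap κ _ c) := by
    rw [MvPowerSeries.isUnit_iff_constantCoeff, isUnit_iff_ne_zero]
    simpa [hg, MvPowerSeries.algebraMap_apply] using hc
  have h2 := h1.map φ
  rw [map_sub, AlgHom.commutes, PowerSeries.isUnit_iff_constantCoeff, isUnit_iff_ne_zero] at h2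
  apply h2
  simp [← hcd]

theorem hom_ext (φ ψ : MvPowerSeries σ κ →ₐ[κ] κ⟦X⟧) (h : ∀ i, φ (X i) = ψ (X i))
    (g : MvPowerSeries σ κ) : φ g = ψ g := by
  cases nonempty_fintype σ
  have key : ∀ (k : ℕ) (g : MvPowerSeries σ κ), PowerSeries.X ^ k ∣ φ g - ψ g := by
    intro k
    induction k with
    | zero => simp
    | succ k ih =>
      intro g
      have h1 : g - algebraMap κ _ (constantCoeff g) ∈
          Ideal.span (Set.range (X : σ → MvPowerSeries σ κ)) :=
        mem_span_range_X (by simp [MvPowerSeries.algebraMap_apply])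
      obtain ⟨c, hc⟩ := Ideal.mem_span_range_iff_exists_fun.1 h1
      have h2 : g = algebraMap κ _ (constantCoeff g) + ∑ i, c i * X i := by rw [hc]; ring
      have h3 : φ g - ψ g = ∑ i, (φ (c i) - ψ (c i)) * φ (X i) := by
        conv_lhs => rw [h2]
        simp only [map_add, AlgHom.commutes, map_sum, map_mul, sub_mul, Finset.sum_sub_distrib, h]
        ring
      rw [h3]
      refine Finset.dvd_sum fun i _ => ?_
      rw [pow_succ]
      exact mul_dvd_mul (ih _) (PowerSeries.X_dvd_iff.2 (const_hom φ (constantCoeff_X i)))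
  rw [← sub_eq_zero]
  ext n
  rw [PowerSeries.X_pow_dvd_iff.1 (key (n + 1) g) n (by omega), map_zero]

theorem hasSubst_arc {γ : σ → κ⟦X⟧} (h : ∀ i, PowerSeries.constantCoeff (γ i) = 0) :
    HasSubst (τ := Unit) (S := κ) γ :=
  hasSubst_of_constantCoeff_zero h

/-- the arc with the coordinates `γ` -/
noncomputable def arcHom {γ : σ → κ⟦X⟧} (h : ∀ i, PowerSeries.constantCoeff (γ i) = 0) :
    MvPowerSeries σ κ →ₐ[κ] κ⟦X⟧ := substAlgHom (hasSubst_arc h)

theorem arcHom_apply {γ : σ → κ⟦X⟧} (h : ∀ i, PowerSeries.constantCoeff (γ i) = 0)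
    (g : MvPowerSeries σ κ) : arcHom h g = subst (τ := Unit) (S := κ) γ g :=
  substAlgHom_apply _ g

theorem arcHom_X {γ : σ → κ⟦X⟧} (h : ∀ i, PowerSeries.constantCoeff (γ i) = 0) (i : σ) :
    arcHom h (X i) = γ i := substAlgHom_X _ i

theorem hom_eq_subst (φ : MvPowerSeries σ κ →ₐ[κ] κ⟦X⟧) (g : MvPowerSeries σ κ) :
    φ g = subst (τ := Unit) (S := κ) (fun i => φ (X i)) g := by
  have h : ∀ i, PowerSeries.constantCoeff (φ (X i)) = 0 :=
    fun i => const_hom φ (constantCoeff_X i)
  rw [← arcHom_apply h]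
  exact hom_ext _ _ (fun i => (arcHom_X h i).symm) g

end MaxIdeal

section Lin

variable {κ : Type*} [Field κ] {σ τ υ : Type*} [Fintype σ] [Fintype τ] [Fintype υ]

/-- the linear forms with coefficient matrix `B` -/
noncomputable def linForm (B : Matrix σ τ κ) (i : σ) : MvPowerSeries τ κ :=
  ∑ j, C (B i j) * X j

omit [Fintype σ] in
theorem hasSubst_linForm [Finite σ] (B : Matrix σ τ κ) : HasSubst (linForm B) :=
  hasSubst_of_constantCoeff_zero fun i => by
    simp only [linForm, map_sum, map_mul, constantCoeff_C, constantCoeff_X, mul_zero,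
      Finset.sum_const_zero]

/-- the linear substitution `X_i ↦ ∑ j, B i j X_j`. -/
noncomputable def linSubst (B : Matrix σ τ κ) : MvPowerSeries σ κ →ₐ[κ] MvPowerSeries τ κ :=
  substAlgHom (hasSubst_linForm B)

theorem linSubst_apply (B : Matrix σ τ κ) (f : MvPowerSeries σ κ) :
    linSubst B f = subst (linForm B) f := by
  rw [linSubst, coe_substAlgHom]

@[simp] theorem linSubst_X (B : Matrix σ τ κ) (i : σ) : linSubst B (X i) = linForm B i := by
  rw [linSubst_apply, subst_X (hasSubst_linForm B)]

@[simp] theorem linSubst_C (B : Matrix σ τ κ) (c : κ) : linSubst B (C c) = C c := by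
  have := (linSubst B).commutes c
  simpa [MvPowerSeries.algebraMap_apply] using this

omit [Fintype σ] in
theorem linSubst_linForm (B : Matrix τ υ κ) (B' : Matrix σ τ κ) (i : σ) :
    linSubst B (linForm B' i) = linForm (B' * B) i := by
  simp only [linForm, map_sum, map_mul, linSubst_C, linSubst_X, Matrix.mul_apply]
  simp_rw [Finset.mul_sum, Finset.sum_mul]
  rw [Finset.sum_comm]
  refine Finset.sum_congr rfl fun j _ => Finset.sum_congr rfl fun k _ => ?_
  ring

theorem linSubst_linSubst (B : Matrix τ υ κ) (B' : Matrix σ τ κ) (f : MvPowerSeries σ κ) :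
    linSubst B (linSubst B' f) = linSubst (B' * B) f := by
  rw [linSubst_apply, linSubst_apply, subst_comp_subst_apply (hasSubst_linForm B')
    (hasSubst_linForm B), linSubst_apply]
  congr 1
  funext i
  rw [← linSubst_apply, linSubst_linForm]

theorem linSubst_one [DecidableEq σ] (f : MvPowerSeries σ κ) :
    linSubst (1 : Matrix σ σ κ) f = f := by
  rw [linSubst_apply]
  have : linForm (1 : Matrix σ σ κ) = X := by
    funext i
    simp only [linForm, Matrix.one_apply, apply_ite, map_one, map_zero, ite_mul, one_mul,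
      zero_mul, Finset.sum_ite_eq, Finset.mem_univ, ↓reduceIte]
  rw [this, subst_self]
  rfl

/-- coefficients of the restriction to a line -/
theorem coeff_line (c : Matrix σ Unit κ) (F : MvPowerSeries σ κ) (r : ℕ) :
    coeff (single () r) (linSubst c F) =
      ∑ᶠ d : σ →₀ ℕ, coeff d F * (if degree d = r then ∏ i, c i () ^ d i else 0) := by
  rw [linSubst_apply, coeff_subst (hasSubst_linForm c)]
  refine finsum_congr fun d => ?_
  rw [smul_eq_mul]
  congr 1
  have : (d.prod fun s e => linForm c s ^ e) =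
      C (∏ i, c i () ^ d i) * (X () : MvPowerSeries Unit κ) ^ (degree d) := by
    rw [Finsupp.prod_fintype _ _ (by simp)]
    simp only [linForm, Finset.univ_unique, Finset.sum_singleton, mul_pow, Finset.prod_mul_distrib]
    rw [Finset.prod_pow_eq_pow_sum, degree_eq_sum, map_prod]
    simp only [PUnit.default_eq_unit, map_pow]
  rw [this, coeff_C_mul, coeff_X_pow]
  by_cases h : degree d = r
  · simp only [h, ↓reduceIte, mul_one]
  · rw [if_neg, if_neg h, mul_zero]
    intro h'
    apply h
    have := congrArg (fun z => z ()) h'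
    simpa using this.symm

theorem coeff_line_single [DecidableEq σ] (i : σ) (F : MvPowerSeries σ κ) (r : ℕ) :
    coeff (single () r) (linSubst (Matrix.of fun j (_ : Unit) => if j = i then (1 : κ) else 0) F) =
      coeff (single i r) F := by
  rw [coeff_line, finsum_eq_single _ (single i r)]
  · have : (∏ x : σ, (Matrix.of fun j (_ : Unit) => if j = i then (1 : κ) else 0) x () ^
        (single i r) x) = 1 := by
      refine Finset.prod_eq_one fun x _ => ?_
      by_cases hx : x = i
      · simp [hx]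
      · simp [hx]
    rw [this, if_pos (by simp), mul_one]
  · intro d hd
    by_cases h : degree d = r
    · rw [if_pos h]
      obtain ⟨x, hx, hdx⟩ : ∃ x, x ≠ i ∧ d x ≠ 0 := by
        by_contra! hcon
        apply hd
        ext x
        by_cases hx : x = i
        · subst hx
          rw [single_eq_same, ← h, degree_eq_sum, Finset.sum_eq_single x]
          · intro b _ hb; exact hcon b hb
          · simp only [Finset.mem_univ, not_true_eq_false, IsEmpty.forall_iff]
        · rw [hcon x hx, single_eq_of_ne hx]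
      rw [Finset.prod_eq_zero (Finset.mem_univ x)]
      · simp
      · simp [hx, hdx]
    · simp [h]

theorem exists_line [Infinite κ] (F : MvPowerSeries σ κ) (r : ℕ) (hr : F.order = r) (i₀ : σ) :
    ∃ c : Matrix σ Unit κ, c i₀ () ≠ 0 ∧ coeff (single () r) (linSubst c F) ≠ 0 := by
  classical
  let q : MvPolynomial σ κ := truncTotal (r + 1) F
  obtain ⟨⟨d0, hd0, hdr⟩, hlt⟩ := order_eq_nat.mp hr
  have hq : q ≠ 0 := by
    intro h0
    apply hd0
    rw [← coeff_truncTotal (n := r + 1) F (by omega)]
    change MvPolynomial.coeff d0 q = 0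
    rw [h0]; simp
  have hq2 : q * MvPolynomial.X i₀ ≠ 0 := mul_ne_zero hq (MvPolynomial.X_ne_zero i₀)
  obtain ⟨c, hc⟩ : ∃ c : σ → κ, MvPolynomial.eval c (q * MvPolynomial.X i₀) ≠ 0 := by
    by_contra! hcon
    exact hq2 (MvPolynomial.funext fun x => by simpa using hcon x)
  rw [map_mul, MvPolynomial.eval_X] at hc
  refine ⟨Matrix.of fun i _ => c i, right_ne_zero_of_mul hc, ?_⟩
  rw [coeff_line]
  have hc1 := left_ne_zero_of_mul hc
  rw [MvPolynomial.eval_eq'] at hc1
  convert hc1 using 1
  rw [finsum_eq_sum_of_support_subset (s := q.support)]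
  · refine Finset.sum_congr rfl fun d hd => ?_
    have hd1 : degree d < r + 1 := by
      by_contra hcon
      rw [MvPolynomial.mem_support_iff] at hd
      exact hd (coeff_truncTotal_eq_zero F (by omega))
    have hd2 : MvPolynomial.coeff d q = coeff d F := coeff_truncTotal F hd1
    rw [hd2]
    by_cases hd3 : degree d = r
    · simp only [hd3, ↓reduceIte, Matrix.of_apply]
    · rw [hlt d (by omega)]
      simp only [Matrix.of_apply, mul_ite, zero_mul, mul_zero, ite_self]
  · intro d hd
    rw [Function.mem_support] at hd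
    have hd1 : degree d = r := by
      by_contra hcon
      exact hd (by simp [hcon])
    have hd2 : coeff d F ≠ 0 := left_ne_zero_of_mul hd
    rw [Finset.mem_coe, MvPolynomial.mem_support_iff]
    change MvPolynomial.coeff d (truncTotal (r + 1) F) ≠ 0
    rwa [coeff_truncTotal F (by omega)]

/-- a linear change of coordinates fixing `X i₀` makes `g` regular in `X j₀` -/
theorem exists_regular [Infinite κ] {i₀ j₀ : σ} (hij : j₀ ≠ i₀) (g : MvPowerSeries σ κ)
    (hg : ¬ X i₀ ∣ g) : ∃ e : MvPowerSeries σ κ ≃ₐ[κ] MvPowerSeries σ κ, e (X i₀) = X i₀ ∧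
      ∃ r, coeff (single j₀ r) (e g) ≠ 0 := by
  classical
  let a : σ → κ := fun i => if i = i₀ then 0 else 1
  have hres : linSubst (Matrix.diagonal a) g = rescale a g := by
    rw [rescale_eq_subst, linSubst_apply]
    congr 1
    funext i
    simp only [linForm, Matrix.diagonal_apply, apply_ite, map_zero, ite_mul, zero_mul,
      Finset.sum_ite_eq, Finset.mem_univ, ↓reduceIte, Pi.smul_apply', smul_eq_C_mul]
  have hF0 : rescale a g ≠ 0 := by
    intro h0
    apply hg
    rw [X_dvd_iff]
    intro m hm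
    have h1 := congrArg (coeff m) h0
    rw [coeff_rescale, map_zero] at h1
    have h2 : (m.prod fun s k => a s ^ k) = 1 := by
      refine Finset.prod_eq_one fun s hs => ?_
      have : s ≠ i₀ := by
        rintro rfl
        exact (Finsupp.mem_support_iff.1 hs) hm
      simp [a, this]
    rwa [h2, one_mul] at h1
  obtain ⟨r, hr⟩ : ∃ r : ℕ, (rescale a g).order = r :=
    ⟨(rescale a g).order.toNat, (ne_zero_iff_order_finite.mp hF0).symm⟩
  obtain ⟨c, hc1, hc2⟩ := exists_line _ r hr j₀
  rw [← hres, linSubst_linSubst] at hc2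
  let c' : σ → κ := fun i => a i * c i ()
  let M : Matrix σ σ κ := (1 : Matrix σ σ κ).updateCol j₀ c'
  have hdet : M.det = c' j₀ := by
    have := Matrix.cramer_apply (1 : Matrix σ σ κ) c' j₀
    rw [Matrix.cramer_one] at this
    exact this.symm
  have hu : IsUnit M.det := by
    rw [hdet]
    exact isUnit_iff_ne_zero.mpr (by simpa [c', a, hij] using hc1)
  refine ⟨AlgEquiv.ofAlgHom (linSubst M) (linSubst M⁻¹) ?_ ?_, ?_, r, ?_⟩
  · ext1 f
    change linSubst M (linSubst M⁻¹ f) = f
    rw [linSubst_linSubst, Matrix.nonsing_inv_mul _ hu, linSubst_one]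
  · ext1 f
    change linSubst M⁻¹ (linSubst M f) = f
    rw [linSubst_linSubst, Matrix.mul_nonsing_inv _ hu, linSubst_one]
  · change linSubst M (X i₀) = X i₀
    rw [linSubst_X, linForm, Finset.sum_eq_single i₀]
    · simp [M, hij.symm]
    · intro b _ hb
      by_cases hbj : b = j₀
      · simp [M, hbj, c', a]
      · simp [M, hbj, Matrix.one_apply_ne hb.symm]
    · simp
  · change coeff (single j₀ r) (linSubst M g) ≠ 0
    rw [← coeff_line_single, linSubst_linSubst]
    convert hc2 using 4
    ext i j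
    simp [Matrix.mul_apply, M, c', Matrix.diagonal_apply]

end Lin

variable {K : Type*} [Field K] [CharZero K]

theorem gb_fin (n : ℕ) : ∀ G : Set (MvPowerSeries (Fin (n + 1)) K),
    GB K (X (Fin.last n) : MvPowerSeries (Fin (n + 1)) K) G := by
  have hdiv : ∀ (n : ℕ) (I : Ideal (MvPowerSeries (Fin (n + 1)) K)), I.IsPrime →
      X (Fin.last n) ∉ I → I ≠ ⊥ → ∃ g ∈ I, ¬ X (Fin.last n) ∣ g := by
    intro n I hI ht h0
    obtain ⟨f, hfI, hf0⟩ := Submodule.exists_mem_ne_zero_of_ne_bot h0
    have hnu : ¬ IsUnit (X (Fin.last n) : MvPowerSeries (Fin (n + 1)) K) := by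
      rw [MvPowerSeries.isUnit_iff_constantCoeff]
      simp
    have : IsDomain (MvPowerSeries (Fin (n + 1)) K) := NoZeroDivisors.to_isDomain _
    obtain ⟨m, g, hg, hfg⟩ := WfDvdMonoid.max_power_factor' hf0 hnu
    rw [hfg] at hfI
    exact ⟨g, (hI.mem_or_mem hfI).resolve_left fun h => ht (hI.mem_of_pow_mem _ h), hg⟩
  have hbot : ∀ (n : ℕ), GB K (X (Fin.last n) : MvPowerSeries (Fin (n + 1)) K)
      ((⊥ : Ideal (MvPowerSeries (Fin (n + 1)) K)) : Set _) := by
    intro n k
    refine ⟨0, fun φ _ _ => ⟨φ, fun g hg => ?_, fun g => by simp⟩⟩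
    obtain rfl : g = 0 := hg
    exact map_zero _
  induction n with
  | zero =>
    refine GB.noeth (fun φ => const_hom φ (constantCoeff_X _)) fun I hI ht _ => ?_
    by_cases h0 : I = ⊥
    · rw [h0]
      exact hbot 0
    obtain ⟨g, hgI, hg⟩ := hdiv 0 I hI ht h0
    refine absurd (Ideal.eq_top_of_isUnit_mem _ hgI ?_) hI.ne_top
    rw [MvPowerSeries.isUnit_iff_constantCoeff, isUnit_iff_ne_zero]
    intro hc
    apply hg
    rw [X_dvd_iff]
    intro m hm
    have : m = 0 := by
      ext i
      rw [show i = Fin.last 0 from Fin.ext (by have := i.2; simp only [Fin.val_last]; omega), hm]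
      rfl
    rw [this]
    simpa using hc
  | succ n ih =>
    refine GB.noeth (fun φ => const_hom φ (constantCoeff_X _)) fun I hI ht hins => ?_
    by_cases h0 : I = ⊥
    · rw [h0]
      exact hbot _
    obtain ⟨g, hgI, hg⟩ := hdiv _ I hI ht h0
    obtain ⟨e₀, he₀, r, hr⟩ := exists_regular (j₀ := 0) (Fin.last_pos.ne) g hg
    let e := e₀.trans (MvPowerSeries.finSuccEquiv K (n + 1))
    have het : e (X (Fin.last (n + 1))) = PowerSeries.C (X (Fin.last n)) := by
      change MvPowerSeries.finSuccEquiv K (n + 1) (e₀ _) = _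
      rw [he₀, ← Fin.succ_last, finSuccEquiv_X_succ]
    have hne : (e g).map (IsLocalRing.residue _) ≠ 0 := by
      intro h1
      have h2 := congrArg (PowerSeries.coeff r) h1
      rw [PowerSeries.coeff_map, map_zero, IsLocalRing.residue_eq_zero_iff, mem_maximalIdeal_iff,
        ← coeff_zero_eq_constantCoeff_apply] at h2
      change coeff 0 (PowerSeries.coeff r (MvPowerSeries.finSuccEquiv K (n + 1) (e₀ g))) = 0 at h2
      rw [coeff_coeff_finSuccEquiv, Finsupp.cons_zero_eq_single_zero] at h2
      exact hr h2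
    obtain ⟨W, u, H⟩ := PowerSeries.exists_isWeierstrassFactorization hne
    let I' := I.comap e.symm.toRingEquiv.toRingHom
    have hI' : I'.IsPrime := Ideal.comap_isPrime _ I
    have himg : (e '' (I : Set _)) = (I' : Set _) := by
      exact e.toEquiv.image_eq_preimage_symm _
    have hWI : (W : (MvPowerSeries (Fin (n + 1)) K)⟦X⟧) ∈ I' := by
      have h1 : e g ∈ I' := by
        rw [← SetLike.mem_coe, ← himg]
        exact ⟨g, hgI, rfl⟩
      rw [H.eq_mul] at h1
      exact (hI'.mem_or_mem h1).resolve_right fun h =>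
        hI'.ne_top (Ideal.eq_top_of_isUnit_mem _ h H.isUnit)
    have key := GB.step (K := K) (t := (X (Fin.last n) : MvPowerSeries (Fin (n + 1)) K))
      (fun φ => const_hom φ (constantCoeff_X _))
      (fun φ => by
        have := const_hom (φ.comp (MvPowerSeries.finSuccEquiv K (n + 1)).toAlgHom)
          (constantCoeff_X (0 : Fin (n + 1 + 1)))
        simpa using this)
      ih I' hI' W H.isDistinguishedAt.monic hWI
      (fun f => by
        have h1 := H.isDistinguishedAt.isWeierstrassDivisorAt'
        exact ⟨_, _, (h1.isWeierstrassDivisionAt_div_mod f).eq_mul_add⟩)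
      (fun h hh => by
        have h1 := (hins (e.symm h) hh).congr e
        rwa [het, Set.image_insert_eq, himg, AlgEquiv.apply_symm_apply] at h1)
    have h2 := key.congr e.symm
    rw [← het, ← himg, AlgEquiv.symm_apply_apply, Set.image_image] at h2
    simpa using h2

/-- the uniform version of the arc lemma -/
theorem gb_mv {σ : Type*} [Finite σ] (i₀ : σ) (G : Set (MvPowerSeries σ K)) :
    GB K (X i₀ : MvPowerSeries σ K) G := by
  classical
  cases nonempty_fintype σ
  have : Nonempty σ := ⟨i₀⟩
  obtain ⟨n, hn⟩ : ∃ n, Fintype.card σ = n + 1 :=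
    Nat.exists_eq_succ_of_ne_zero Fintype.card_ne_zero
  let f₀ : σ ≃ Fin (n + 1) := Fintype.equivFinOfCardEq hn
  let f : σ ≃ Fin (n + 1) := f₀.trans (Equiv.swap (f₀ i₀) (Fin.last n))
  have hf : f.symm (Fin.last n) = i₀ := by
    rw [Equiv.symm_apply_eq]
    simp [f]
  let e := renameEquiv K f
  have h := (gb_fin n (e '' G)).congr e.symm
  have h1 : e.symm (X (Fin.last n)) = X i₀ := by
    rw [← hf]
    exact rename_X _ _
  rw [h1, Set.image_image] at h
  simpa using h

/-- **Arc lemma**, for algebra maps. -/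
theorem arc_lemma_hom {σ : Type*} [Finite σ] (i₀ : σ) (G : Set (MvPowerSeries σ K))
    (h : ∀ N : ℕ, ∃ φ : MvPowerSeries σ K →ₐ[K] K⟦X⟧, φ (X i₀) ≠ 0 ∧
      ∀ g ∈ G, φ (X i₀) ^ N ∣ φ g) :
    ∃ ψ : MvPowerSeries σ K →ₐ[K] K⟦X⟧, ψ (X i₀) ≠ 0 ∧ ∀ g ∈ G, ψ g = 0 := by
  obtain ⟨N, hN⟩ := gb_mv i₀ G 2
  obtain ⟨φ, h0, hφ⟩ := h N
  obtain ⟨ψ, h1, h2⟩ := hN φ h0 hφ
  refine ⟨ψ, fun h3 => ?_, h1⟩
  have := h2 (X i₀)
  rw [h3, sub_zero] at this
  exact not_pow_dvd h0 (const_hom φ (constantCoeff_X _)) this

/-- **Arc lemma.** -/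
theorem arc_lemma {σ : Type*} [Finite σ] (i₀ : σ) (G : Set (MvPowerSeries σ K))
    (h : ∀ N : ℕ, ∃ γ : σ → K⟦X⟧, (∀ i, PowerSeries.constantCoeff (γ i) = 0) ∧ γ i₀ ≠ 0 ∧
      ∀ g ∈ G, γ i₀ ^ N ∣ subst (τ := Unit) (S := K) γ g) :
    ∃ γ : σ → K⟦X⟧, (∀ i, PowerSeries.constantCoeff (γ i) = 0) ∧ γ i₀ ≠ 0 ∧
      ∀ g ∈ G, subst (τ := Unit) (S := K) γ g = 0 := by
  obtain ⟨ψ, h0, h1⟩ := arc_lemma_hom i₀ G fun N => by
    obtain ⟨γ, hγ, h0, h1⟩ := h N
    refine ⟨arcHom hγ, by rwa [arcHom_X], fun g hg => ?_⟩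
    rw [arcHom_X, arcHom_apply]
    exact h1 g hg
  exact ⟨fun i => ψ (X i), fun i => const_hom ψ (constantCoeff_X i), h0,
    fun g hg => (hom_eq_subst ψ g).symm.trans (h1 g hg)⟩

end Vale.Agent.Lib.RealArc
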