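import Mathlib.RingTheory.PowerSeries.WeierstrassPreparation
import Mathlib.RingTheory.AdicCompletion.Completeness
import Mathlib.RingTheory.Polynomial.Quotient
import Mathlib.RingTheory.Valuation.ValuationRing
import Mathlib.RingTheory.DiscreteValuationRing.TFAE
import Mathlib.Algebra.Polynomial.CancelLeads
import Mathlib.Algebra.Polynomial.Identities
import Mathlib.Algebra.Polynomial.EraseLead
import Mathlib.RingTheory.Noetherian.Basic

/-! # Approximate arcs and exact arcs: the one-variable step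

An arc of a `K`-algebra `A` is a `K`-algebra map `A → K⟦X⟧`. `GB t G` says that arcs which kill
`G` up to a large power of `t` are close to arcs which kill `G` exactly. -/

open Polynomial
open scoped PowerSeries

namespace Vale.Agent.Lib.RealArc

variable {K : Type*} [Field K]

instance complete_max : IsAdicComplete (IsLocalRing.maximalIdeal K⟦X⟧) K⟦X⟧ := by
  rw [PowerSeries.maximalIdeal_eq_span_X]
  infer_instance

theorem mem_max_iff {y : K⟦X⟧} :
    y ∈ IsLocalRing.maximalIdeal K⟦X⟧ ↔ PowerSeries.constantCoeff y = 0 := by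
  rw [← PowerSeries.ker_coeff_eq_max_ideal, RingHom.mem_ker]

theorem exists_ev' {A : Type*} [CommRing A] (I : Ideal A) [IsAdicComplete I A] (y : A)
    (hy : y ∈ I) : ∃ ev : A⟦X⟧ →+* A, ∀ p : A[X], ev (p : A⟦X⟧) = p.eval y := by
  have H : (X - C y : A[X]).IsDistinguishedAt I := by
    refine ⟨⟨fun {n} hn => ?_⟩, monic_X_sub_C y⟩
    have := natDegree_X_sub_C_le y
    obtain rfl : n = 0 := by omega
    simpa using hy
  refine ⟨((quotientSpanXSubCAlgEquiv y).toRingEquiv.toRingHom.comp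
    H.algEquivQuotient.symm.toRingEquiv.toRingHom).comp (Ideal.Quotient.mk _), fun p => ?_⟩
  have h1 : H.algEquivQuotient (Ideal.Quotient.mk _ p) =
      Ideal.Quotient.mk _ (p : A⟦X⟧) := by
    rw [Polynomial.IsDistinguishedAt.algEquivQuotient_apply]
    simp
  change quotientSpanXSubCAlgEquiv y (H.algEquivQuotient.symm (Ideal.Quotient.mk _ _)) = _
  rw [← h1, AlgEquiv.symm_apply_apply, quotientSpanXSubCAlgEquiv_mk]

/-- evaluation of a power series over `K⟦X⟧` at a series without constant term -/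
theorem exists_ev (y : K⟦X⟧) (hy : PowerSeries.constantCoeff y = 0) :
    ∃ ev : K⟦X⟧⟦X⟧ →+* K⟦X⟧, ∀ p : K⟦X⟧[X], ev (p : K⟦X⟧⟦X⟧) = p.eval y :=
  exists_ev' (IsLocalRing.maximalIdeal K⟦X⟧) y (mem_max_iff.2 hy)

/-- a simple root modulo the maximal ideal lifts -/
theorem exists_root (a : K⟦X⟧) (ha : PowerSeries.constantCoeff a = 0) (k : K⟦X⟧[X]) :
    ∃ z : K⟦X⟧, a + z + k.eval z * z ^ 2 = 0 ∧ a ∣ z := by
  set p : K⟦X⟧[X] := C a + X + k * X ^ 2 with hp
  have h0 : PowerSeries.coeff 0 ((p : K⟦X⟧⟦X⟧).map (IsLocalRing.residue _)) = 0 := by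
    rw [PowerSeries.coeff_map, IsLocalRing.residue_eq_zero_iff, mem_max_iff, coeff_coe]
    simp [hp, ha]
  have h1 : PowerSeries.coeff 1 ((p : K⟦X⟧⟦X⟧).map (IsLocalRing.residue _)) = 1 := by
    rw [PowerSeries.coeff_map, coeff_coe]
    simp [hp, coeff_mul_X_pow']
  have hne : (p : K⟦X⟧⟦X⟧).map (IsLocalRing.residue _) ≠ 0 := fun h => by
    rw [h] at h1
    simp at h1
  obtain ⟨f, h, H⟩ := PowerSeries.exists_isWeierstrassFactorization hne
  have hdeg : f.natDegree = 1 := by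
    rw [H.natDegree_eq_toNat_order_map]
    have : ((p : K⟦X⟧⟦X⟧).map (IsLocalRing.residue _)).order = (1 : ℕ) := by
      rw [PowerSeries.order_eq_nat]
      refine ⟨by rw [h1]; exact one_ne_zero, fun i hi => ?_⟩
      obtain rfl : i = 0 := by omega
      exact h0
    rw [this]
    rfl
  have hm := H.isDistinguishedAt.monic
  have hf := hm.eq_X_add_C hdeg
  have hc : PowerSeries.constantCoeff (-f.coeff 0) = 0 := by
    rw [map_neg, neg_eq_zero, ← mem_max_iff]
    exact H.isDistinguishedAt.mem (by omega)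
  obtain ⟨ev, hev⟩ := exists_ev _ hc
  have hz : p.eval (-f.coeff 0) = 0 := by
    rw [← hev, H.eq_mul, map_mul, hev]
    have : f.eval (-f.coeff 0) = 0 := by
      conv_lhs => rw [hf]
      simp
    rw [this, zero_mul]
  set z := -f.coeff 0
  have hz' : a + z + k.eval z * z ^ 2 = 0 := by simpa [hp] using hz
  refine ⟨z, hz', ?_⟩
  have hu : IsUnit (1 + k.eval z * z) := by
    rw [PowerSeries.isUnit_iff_constantCoeff]
    simp [hc]
  obtain ⟨u, hu⟩ := hu
  refine ⟨-(↑u⁻¹ : K⟦X⟧), ?_⟩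
  have h3 : a = -(z * u) := by rw [hu]; linear_combination hz'
  rw [h3]
  simp [mul_assoc]

/-- Hensel's lemma in Newton's form -/
theorem hensel (f : K⟦X⟧[X]) (y₀ v : K⟦X⟧) (hv : PowerSeries.constantCoeff v = 0)
    (h : f.derivative.eval y₀ ^ 2 * v ∣ f.eval y₀) :
    ∃ y : K⟦X⟧, f.eval y = 0 ∧ v ∣ y - y₀ := by
  obtain ⟨w, hw⟩ := h
  set d := f.derivative.eval y₀ with hd
  obtain ⟨k, hk⟩ := (f.map C).binomExpansion (C y₀) (C d * X)
  obtain ⟨z, hz, hvz⟩ := exists_root (v * w) (by simp [hv]) k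
  refine ⟨y₀ + d * z, ?_, ?_⟩
  · have h1 := congrArg (Polynomial.eval z) hk
    have h2 : ∀ (g : K⟦X⟧[X]) (q : K⟦X⟧[X]),
        Polynomial.eval z ((g.map C).eval q) = g.eval (q.eval z) := by
      intro g q
      rw [eval_map, ← coe_evalRingHom, hom_eval₂]
      have : (evalRingHom z).comp C = RingHom.id K⟦X⟧ := by
        ext1 a
        simp
      rw [this]
      rfl
    rw [h2, eval_add, eval_add, eval_add, h2, derivative_map, eval_mul, eval_mul, h2] at h1
    simp only [eval_C, eval_mul, eval_X, eval_pow] at h1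
    rw [h1, hw, ← hd]
    linear_combination d ^ 2 * hz
  · rw [add_sub_cancel_left]
    exact Dvd.dvd.mul_left (dvd_trans (dvd_mul_right v w) hvz) d

theorem dvd_X_pow {v : K⟦X⟧} (hv : v ≠ 0) : ∃ m : ℕ, v ∣ PowerSeries.X ^ m := by
  obtain ⟨u, hu⟩ := PowerSeries.isUnit_divided_by_X_pow_order hv
  refine ⟨v.order.toNat, ↑u⁻¹, ?_⟩
  have := PowerSeries.X_pow_order_mul_divXPowOrder (f := v)
  conv_rhs => rw [← this, ← hu]
  simp [mul_assoc]

variable {A : Type*} [CommRing A]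

theorem hom_coe {S : Type*} [CommRing S] (φ : A⟦X⟧ →+* S) (r : A[X]) :
    φ (r : A⟦X⟧) = (r.map (φ.comp PowerSeries.C)).eval (φ PowerSeries.X) := by
  induction r using Polynomial.induction_on' with
  | add p q hp hq => simp [hp, hq]
  | monomial n a =>
    rw [Polynomial.coe_monomial, PowerSeries.monomial_eq_C_mul_X_pow]
    simp

theorem dvd_eval_sub {S : Type*} [CommRing S] (φ ψ : A →+* S) (v y y' : S)
    (h : ∀ a, v ∣ φ a - ψ a) (hy : v ∣ y - y') (r : A[X]) :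
    v ∣ (r.map φ).eval y - (r.map ψ).eval y' := by
  induction r using Polynomial.induction_on' with
  | add p q hp hq =>
    simp only [Polynomial.map_add, eval_add]
    have := dvd_add hp hq
    convert this using 1
    ring
  | monomial n a =>
    simp only [map_monomial, eval_monomial]
    have h1 : v ∣ y ^ n - y' ^ n := hy.trans (sub_dvd_pow_sub_pow y y' n)
    have : φ a * y ^ n - ψ a * y' ^ n = (φ a - ψ a) * y ^ n + ψ a * (y ^ n - y' ^ n) := by ring
    rw [this]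
    exact dvd_add ((h a).mul_right _) (h1.mul_left _)

/-- continuity of arcs -/
theorem dvd_sub_ps (φ ψ : A⟦X⟧ →+* K⟦X⟧) {v : K⟦X⟧} (hv : v ≠ 0)
    (h : ∀ a, v ∣ φ (PowerSeries.C a) - ψ (PowerSeries.C a))
    (hy : v ∣ φ PowerSeries.X - ψ PowerSeries.X)
    (h1 : PowerSeries.constantCoeff (φ PowerSeries.X) = 0)
    (h2 : PowerSeries.constantCoeff (ψ PowerSeries.X) = 0) (g : A⟦X⟧) : v ∣ φ g - ψ g := by
  obtain ⟨m, hm⟩ := dvd_X_pow hv
  have hg := PowerSeries.eq_X_pow_mul_shift_add_trunc m g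
  set g' := PowerSeries.mk fun i => PowerSeries.coeff (i + m) g
  have e1 : v ∣ φ (PowerSeries.X ^ m * g') := by
    rw [map_mul, map_pow]
    exact (hm.trans (pow_dvd_pow_of_dvd (PowerSeries.X_dvd_iff.2 h1) m)).mul_right _
  have e2 : v ∣ ψ (PowerSeries.X ^ m * g') := by
    rw [map_mul, map_pow]
    exact (hm.trans (pow_dvd_pow_of_dvd (PowerSeries.X_dvd_iff.2 h2) m)).mul_right _
  have e3 := dvd_eval_sub (φ.comp PowerSeries.C) (ψ.comp PowerSeries.C) v _ _ h hy
    (PowerSeries.trunc m g)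
  rw [← hom_coe, ← hom_coe] at e3
  rw [hg, map_add, map_add]
  have := dvd_add (dvd_sub e1 e2) e3
  convert this using 1
  ring

variable [Algebra K A]

/-- arcs killing `G` up to a large power of `t` are close to arcs killing `G` -/
def GB (K : Type*) [Field K] {A : Type*} [CommRing A] [Algebra K A] (t : A) (G : Set A) : Prop :=
  ∀ k : ℕ, ∃ N : ℕ, ∀ φ : A →ₐ[K] K⟦X⟧, φ t ≠ 0 → (∀ g ∈ G, φ t ^ N ∣ φ g) →
    ∃ ψ : A →ₐ[K] K⟦X⟧, (∀ g ∈ G, ψ g = 0) ∧ ∀ g, φ t ^ k ∣ φ g - ψ g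

theorem GB.of_span {t : A} {G : Set A} (h : GB K t (Ideal.span G : Set A)) : GB K t G := by
  intro k
  obtain ⟨N, hN⟩ := h k
  refine ⟨N, fun φ h0 hφ => ?_⟩
  obtain ⟨ψ, h1, h2⟩ := hN φ h0 (fun g hg => by
    induction hg using Submodule.span_induction with
    | mem x hx => exact hφ x hx
    | zero => simp
    | add x y _ _ hx hy => rw [map_add]; exact dvd_add hx hy
    | smul a x _ hx => rw [smul_eq_mul, map_mul]; exact hx.mul_left _)
  exact ⟨ψ, fun g hg => h1 g (Ideal.subset_span hg), h2⟩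

theorem GB.congr {B : Type*} [CommRing B] [Algebra K B] (e : A ≃ₐ[K] B) {t : A} {G : Set A}
    (h : GB K t G) : GB K (e t) (e '' G) := by
  intro k
  obtain ⟨N, hN⟩ := h k
  refine ⟨N, fun φ h0 hφ => ?_⟩
  obtain ⟨ψ, h1, h2⟩ := hN (φ.comp e.toAlgHom) h0 (fun g hg => hφ _ ⟨g, hg, rfl⟩)
  refine ⟨ψ.comp e.symm.toAlgHom, ?_, fun g => ?_⟩
  · rintro _ ⟨g, hg, rfl⟩
    simpa using h1 g hg
  · simpa using h2 (e.symm g)

theorem not_pow_dvd {u : K⟦X⟧} (hu0 : u ≠ 0) (hu : PowerSeries.constantCoeff u = 0) :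
    ¬ u ^ 2 ∣ u := by
  rintro ⟨w, hw⟩
  have h1 : u * (1 - u * w) = 0 := by linear_combination hw
  rcases mul_eq_zero.1 h1 with h | h
  · exact hu0 h
  · have := congrArg PowerSeries.constantCoeff h
    simp [hu] at this

/-- reduction to prime ideals -/
theorem GB.noeth [IsNoetherianRing A] {t : A}
    (ht : ∀ φ : A →ₐ[K] K⟦X⟧, PowerSeries.constantCoeff (φ t) = 0)
    (H : ∀ I : Ideal A, I.IsPrime → t ∉ I → (∀ h ∉ I, GB K t (insert h (I : Set A))) →
      GB K t (I : Set A)) (G : Set A) : GB K t G := by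
  refine GB.of_span ?_
  generalize Ideal.span G = I
  induction I using IsNoetherian.induction with
  | _ I ih =>
  have hins : ∀ h ∉ I, GB K t (insert h (I : Set A)) := by
    intro h hh
    refine GB.of_span (ih _ ?_)
    refine lt_of_le_of_ne (fun x hx => Ideal.subset_span (Set.mem_insert_of_mem _ hx)) ?_
    intro he
    exact hh (he ▸ Ideal.subset_span (Set.mem_insert _ _))
  by_cases htI : t ∈ I
  · intro k
    exact ⟨2, fun φ h0 hφ => absurd (hφ t htI) (not_pow_dvd h0 (ht φ))⟩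
  by_cases hI : Ideal.IsPrime I
  · exact H I hI htI hins
  rw [Ideal.not_isPrime_iff] at hI
  rcases hI with hI | ⟨g, hg, h, hh, hgh⟩
  · exact absurd (hI ▸ Submodule.mem_top) htI
  intro k
  obtain ⟨N₁, h₁⟩ := hins g hg k
  obtain ⟨N₂, h₂⟩ := hins h hh k
  refine ⟨N₁ + N₂, fun φ h0 hφ => ?_⟩
  have key : φ t ^ N₁ ∣ φ g ∨ φ t ^ N₂ ∣ φ h := by
    rcases ValuationRing.dvd_total (φ t ^ N₁) (φ g) with h3 | ⟨w, hw⟩
    · exact Or.inl h3
    · right
      have h4 := hφ _ hgh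
      rw [map_mul, pow_add, hw] at h4
      by_cases hg0 : φ g = 0
      · rw [hg0, zero_mul] at hw
        exact absurd hw (pow_ne_zero _ h0)
      rw [mul_assoc, mul_dvd_mul_iff_left hg0] at h4
      exact (Dvd.intro_left w rfl).trans h4
  rcases key with h3 | h3
  · obtain ⟨ψ, h5, h6⟩ := h₁ φ h0 (by
      rintro x (rfl | hx)
      · exact h3
      · exact (pow_dvd_pow _ (by omega)).trans (hφ x hx))
    exact ⟨ψ, fun x hx => h5 x (Set.mem_insert_of_mem _ hx), h6⟩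
  · obtain ⟨ψ, h5, h6⟩ := h₂ φ h0 (by
      rintro x (rfl | hx)
      · exact h3
      · exact (pow_dvd_pow _ (by omega)).trans (hφ x hx))
    exact ⟨ψ, fun x hx => h5 x (Set.mem_insert_of_mem _ hx), h6⟩

/-- the step: from `A` to `A⟦X⟧` -/
theorem GB.step [CharZero K] {t : A}
    (ht : ∀ φ : A →ₐ[K] K⟦X⟧, PowerSeries.constantCoeff (φ t) = 0)
    (hX : ∀ φ : A⟦X⟧ →ₐ[K] K⟦X⟧, PowerSeries.constantCoeff (φ PowerSeries.X) = 0)
    (hA : ∀ G : Set A, GB K t G) (I : Ideal A⟦X⟧) (hI : I.IsPrime) (W : A[X]) (hW : W.Monic)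
    (hWI : (W : A⟦X⟧) ∈ I) (hdiv : ∀ g : A⟦X⟧, ∃ (q : A⟦X⟧) (r : A[X]), g = W * q + r)
    (hins : ∀ h ∉ I, GB K (PowerSeries.C t : A⟦X⟧) (insert h (I : Set A⟦X⟧))) :
    GB K (PowerSeries.C t : A⟦X⟧) (I : Set A⟦X⟧) := by
  classical
  set J : Ideal A := I.comap (PowerSeries.C : A →+* A⟦X⟧) with hJ
  have hJp : J.IsPrime := Ideal.comap_isPrime _ I
  have hex : ∃ n, ∃ p : A[X], (p : A⟦X⟧) ∈ I ∧ p.leadingCoeff ∉ J ∧ p.natDegree = n :=
    ⟨_, W, hWI, by rw [hW.leadingCoeff]; exact (Ideal.ne_top_iff_one _).1 hJp.ne_top, rfl⟩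
  obtain ⟨Q, hQI, hQc, hQn⟩ := Nat.find_spec hex
  have hmin : ∀ r : A[X], (r : A⟦X⟧) ∈ I → r.natDegree < Q.natDegree → r.leadingCoeff ∈ J := by
    intro r hr hlt
    by_contra hc
    exact Nat.find_min hex (hQn ▸ hlt) ⟨r, hr, hc, rfl⟩
  have hcoe : ∀ (a : A) (n : ℕ), ((C a * X ^ n : A[X]) : A⟦X⟧) =
      PowerSeries.C a * PowerSeries.X ^ n := by
    intro a n
    simp
  have hlow : ∀ (n : ℕ) (r : A[X]), r.natDegree = n → (r : A⟦X⟧) ∈ I →
      r.natDegree < Q.natDegree → ∀ i, r.coeff i ∈ J := by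
    intro n
    induction n using Nat.strong_induction_on with
    | _ n ih =>
    intro r hn hr hlt i
    have h1 := hmin r hr hlt
    have h2 := eraseLead_add_C_mul_X_pow r
    have h3 : (r.eraseLead : A⟦X⟧) ∈ I := by
      have : (r.eraseLead : A⟦X⟧) =
          (r : A⟦X⟧) - PowerSeries.C r.leadingCoeff * PowerSeries.X ^ r.natDegree := by
        rw [← hcoe, ← Polynomial.coe_sub, eq_sub_of_add_eq h2]
      rw [this]
      exact I.sub_mem hr (I.mul_mem_right _ h1)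
    have h4 : r.eraseLead.coeff i ∈ J := by
      rcases r.eraseLead_natDegree_lt_or_eraseLead_eq_zero with h | h
      · exact ih _ (hn ▸ h) _ rfl h3 (h.trans hlt) i
      · rw [h]
        simp
    rw [← h2, coeff_add, coeff_C_mul]
    exact J.add_mem h4 (J.mul_mem_right _ h1)
  have hQ0 : 0 < Q.natDegree := by
    refine Nat.pos_of_ne_zero fun h0 => hQc ?_
    have h1 := eq_C_of_natDegree_eq_zero h0
    have h2 : Q.leadingCoeff = Q.coeff 0 := by rw [leadingCoeff, h0]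
    rw [h2, hJ, Ideal.mem_comap, ← Polynomial.coe_C, ← h1]
    exact hQI
  have hQ' : ((derivative Q : A[X]) : A⟦X⟧) ∉ I := by
    intro h
    have h1 := hlow _ _ rfl h (natDegree_derivative_lt hQ0.ne') (Q.natDegree - 1)
    rw [coeff_derivative, show Q.natDegree - 1 + 1 = Q.natDegree by omega] at h1
    rcases hJp.mem_or_mem h1 with h2 | h2
    · exact hQc h2
    · refine hJp.ne_top (Ideal.eq_top_of_isUnit_mem _ h2 ?_)
      have h3 : (((Q.natDegree - 1 : ℕ) : A) + 1) =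
          algebraMap K A (((Q.natDegree - 1 : ℕ) : K) + 1) := by simp
      rw [h3]
      exact (IsUnit.mk0 _ (Nat.cast_add_one_ne_zero _)).map _
  set h : A⟦X⟧ := PowerSeries.C Q.leadingCoeff * ((derivative Q : A[X]) : A⟦X⟧) with hh
  have hhI : h ∉ I := fun h1 => (hI.mem_or_mem h1).elim hQc hQ'
  intro k₀
  set k := k₀ + 1 with hk
  obtain ⟨N₀, hN₀⟩ := hins h hhI k₀
  obtain ⟨N₁, hN₁⟩ := hA (J : Set A) (k + 2 * N₀)
  refine ⟨N₀ + N₁ + (k + 2 * N₀), fun φ h0 hφ => ?_⟩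
  set u := φ (PowerSeries.C t) with hu
  by_cases hcase : u ^ N₀ ∣ φ h
  · obtain ⟨ψ, h5, h6⟩ := hN₀ φ h0 (by
      rintro x (rfl | hx)
      · exact hcase
      · exact (pow_dvd_pow _ (by omega)).trans (hφ x hx))
    exact ⟨ψ, fun x hx => h5 x (Set.mem_insert_of_mem _ hx), h6⟩
  let Ca : A →ₐ[K] A⟦X⟧ := IsScalarTower.toAlgHom K A A⟦X⟧
  have hCa : ∀ a, Ca a = PowerSeries.C a := fun a => rfl
  set φ₀ : A →ₐ[K] K⟦X⟧ := φ.comp Ca with hφ₀
  have hφ₀a : ∀ a, φ₀ a = φ (PowerSeries.C a) := fun a => rfl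
  have huc : PowerSeries.constantCoeff u = 0 := ht φ₀
  obtain ⟨ψ₀, hψJ, hψc⟩ := hN₁ φ₀ h0 (fun g hg =>
    (pow_dvd_pow _ (by omega)).trans (hφ (PowerSeries.C g) hg))
  have hψc' : ∀ a, u ^ (k + 2 * N₀) ∣ φ₀ a - ψ₀ a := hψc
  set y₀ := φ PowerSeries.X with hy₀
  have hφp : ∀ r : A[X], φ (r : A⟦X⟧) = (r.map (φ₀ : A →+* K⟦X⟧)).eval y₀ := fun r =>
    hom_coe (φ : A⟦X⟧ →+* K⟦X⟧) r
  have hcl : ∀ r : A[X], u ^ (k + 2 * N₀) ∣
      φ (r : A⟦X⟧) - (r.map (ψ₀ : A →+* K⟦X⟧)).eval y₀ := by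
    intro r
    rw [hφp]
    exact dvd_eval_sub _ _ _ _ _ hψc' (by simp) r
  set f : K⟦X⟧[X] := Q.map (ψ₀ : A →+* K⟦X⟧) with hf
  have hf0 : u ^ (k + 2 * N₀) ∣ f.eval y₀ := by
    have h1 : u ^ (k + 2 * N₀) ∣ φ (Q : A⟦X⟧) := (pow_dvd_pow _ (by omega)).trans (hφ _ hQI)
    have := dvd_sub h1 (hcl Q)
    simpa using this
  have hd : f.derivative.eval y₀ ∣ u ^ N₀ := by
    refine (ValuationRing.dvd_total _ _).resolve_right fun h1 => hcase ?_
    have h2 := (pow_dvd_pow u (show N₀ ≤ k + 2 * N₀ by omega)).trans (hcl (derivative Q))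
    rw [← derivative_map] at h2
    have h3 : u ^ N₀ ∣ φ ((derivative Q : A[X]) : A⟦X⟧) := by
      have := dvd_add h2 h1
      rwa [sub_add_cancel] at this
    rw [hh, map_mul]
    exact h3.mul_left _
  have hc0 : ψ₀ Q.leadingCoeff ≠ 0 := by
    intro h1
    refine hcase ?_
    have h2 := (pow_dvd_pow u (show N₀ ≤ k + 2 * N₀ by omega)).trans (hψc' Q.leadingCoeff)
    rw [h1, sub_zero, hφ₀a] at h2
    rw [hh, map_mul]
    exact h2.mul_right _
  have hukc : PowerSeries.constantCoeff (u ^ k) = 0 := by simp [hk, huc]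
  obtain ⟨y, hy1, hy2⟩ := hensel f y₀ (u ^ k) hukc (by
    refine dvd_trans ?_ hf0
    rw [pow_add u k, mul_comm _ (u ^ k), mul_comm 2 N₀, pow_mul]
    exact mul_dvd_mul_left _ (pow_dvd_pow_of_dvd hd 2))
  have hyc : PowerSeries.constantCoeff y = 0 := by
    obtain ⟨w, hw⟩ := hy2
    have h1 : y = y₀ + u ^ k * w := by linear_combination hw
    rw [h1, map_add, map_mul, hukc, hX φ]
    simp
  obtain ⟨ev, hev⟩ := exists_ev y hyc
  let ψr : A⟦X⟧ →+* K⟦X⟧ := ev.comp (PowerSeries.map (ψ₀ : A →+* K⟦X⟧))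
  have hψp : ∀ r : A[X], ψr (r : A⟦X⟧) = (r.map (ψ₀ : A →+* K⟦X⟧)).eval y := by
    intro r
    change ev (PowerSeries.map _ _) = _
    rw [← Polynomial.polynomial_map_coe, hev]
  have hψC : ∀ a, ψr (PowerSeries.C a) = ψ₀ a := by
    intro a
    rw [← Polynomial.coe_C, hψp]
    simp
  have hψX : ψr PowerSeries.X = y := by
    rw [← Polynomial.coe_X, hψp]
    simp
  let ψ : A⟦X⟧ →ₐ[K] K⟦X⟧ :=
    { ψr with
      commutes' := fun c => by
        have : algebraMap K A⟦X⟧ c = PowerSeries.C (algebraMap K A c) :=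
          PowerSeries.algebraMap_apply
        change ψr _ = _
        rw [this, hψC, AlgHom.commutes] }
  have hψ : ∀ g, ψ g = ψr g := fun g => rfl
  have hpoly : ∀ (n : ℕ) (r : A[X]), r.natDegree = n → (r : A⟦X⟧) ∈ I → ψr (r : A⟦X⟧) = 0 := by
    intro n
    induction n using Nat.strong_induction_on with
    | _ n ih =>
    intro r hn hr
    rcases lt_or_ge r.natDegree Q.natDegree with hlt | hge
    · have h1 : r.map (ψ₀ : A →+* K⟦X⟧) = 0 := by
        ext1 i
        rw [coeff_map]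
        exact hψJ _ (hlow _ r rfl hr hlt i)
      rw [hψp, h1, eval_zero]
    · have h1 := natDegree_cancelLeads_lt_of_natDegree_le_natDegree hge (hQ0.trans_le hge)
      have h2 : ((Q.cancelLeads r : A[X]) : A⟦X⟧) = PowerSeries.C Q.leadingCoeff * (r : A⟦X⟧) -
          PowerSeries.C r.leadingCoeff * PowerSeries.X ^ (r.natDegree - Q.natDegree) *
            (Q : A⟦X⟧) := by
        rw [cancelLeads, tsub_eq_zero_iff_le.mpr hge]
        simp
      have h3 : ((Q.cancelLeads r : A[X]) : A⟦X⟧) ∈ I := by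
        rw [h2]
        exact I.sub_mem (I.mul_mem_left _ hr) (I.mul_mem_left _ hQI)
      have h4 := ih _ (hn ▸ h1) _ rfl h3
      have h5 : ψr (Q : A⟦X⟧) = 0 := by rw [hψp]; exact hy1
      rw [h2, map_sub, map_mul, map_mul, h5, mul_zero, sub_zero, hψC] at h4
      exact (mul_eq_zero.1 h4).resolve_left hc0
  refine ⟨ψ, fun g hg => ?_, fun g => ?_⟩
  · obtain ⟨q, r, hqr⟩ := hdiv g
    have hr : (r : A⟦X⟧) ∈ I := by
      have : (r : A⟦X⟧) = g - W * q := by rw [hqr]; ring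
      rw [this]
      exact I.sub_mem hg (I.mul_mem_right _ hWI)
    rw [hψ, hqr, map_add, map_mul, hpoly _ W rfl hWI, hpoly _ r rfl hr]
    simp
  · refine (pow_dvd_pow u (show k₀ ≤ k by omega)).trans ?_
    refine dvd_sub_ps (φ : A⟦X⟧ →+* K⟦X⟧) ψr (pow_ne_zero _ h0) (fun a => ?_) ?_ (hX φ)
      (by rw [hψX]; exact hyc) g
    · rw [hψC]
      exact (pow_dvd_pow u (by omega)).trans (hψc' a)
    · rw [hψX, ← dvd_neg, neg_sub]
      exact hy2

end Vale.Agent.Lib.RealArc
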